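import Mathlib

namespace Vale.Agent.Results.P034.FewMinimal

open Finset

/-- The harmonic number `H_k = 1 + 1/2 + ... + 1/k`, as a real number. -/
noncomputable def phi (k : ℕ) : ℝ := ∑ j ∈ Finset.range k, 1 / ((j : ℝ) + 1)

theorem phi_nonneg (k : ℕ) : 0 ≤ phi k := by
  unfold phi
  exact Finset.sum_nonneg (fun j _ => by positivity)

theorem phi_mono {a b : ℕ} (h : a ≤ b) : phi a ≤ phi b := by
  unfold phi
  exact Finset.sum_le_sum_of_subset_of_nonneg (Finset.range_mono h) (fun j _ _ => by positivity)

theorem phi_step (n k : ℕ) (hk : k ≤ n) :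
    (k : ℝ) / n + phi (n - k) ≤ phi n := by
  unfold phi
  have h1 := Finset.sum_range_add_sum_Ico (fun j : ℕ => 1 / ((j : ℝ) + 1)) (Nat.sub_le n k)
  have h2 : (k : ℝ) / n ≤ ∑ j ∈ Finset.Ico (n - k) n, 1 / ((j : ℝ) + 1) := by
    have h3 := Finset.card_nsmul_le_sum (Finset.Ico (n - k) n)
      (fun j : ℕ => 1 / ((j : ℝ) + 1)) (1 / (n : ℝ)) (by
        intro j hj
        rw [Finset.mem_Ico] at hj
        apply one_div_le_one_div_of_le
        · positivity
        · have : (j : ℝ) + 1 ≤ n := by exact_mod_cast hj.2
          exact this)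
    rw [Nat.card_Ico, nsmul_eq_mul] at h3
    have h4 : n - (n - k) = k := by omega
    rw [h4] at h3
    calc (k : ℝ) / n = (k : ℝ) * (1 / (n : ℝ)) := by ring
      _ ≤ _ := h3
  linarith

/-- Greedy weighted set cover with the refined harmonic bound: a fractional cover (every element
of `U` receives total weight at least `θ`) can be rounded to an integral cover inside the support
of the weights whose cost is at most `(1/θ) ∑ g(S) c(S) H(number of elements of U covered by S)`. -/
theorem greedy {ι σ : Type*} [DecidableEq ι] [Fintype σ] [DecidableEq σ]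
    (cov : σ → ι → Prop) [∀ S i, Decidable (cov S i)]
    (c g : σ → ℝ) (hc : ∀ S, 0 ≤ c S) (hg : ∀ S, 0 ≤ g S) (θ : ℝ) (hθ : 0 < θ) :
    ∀ (N : ℕ) (U : Finset ι), U.card = N →
      (∀ i ∈ U, θ ≤ ∑ S ∈ Finset.univ.filter (fun S => cov S i), g S) →
      ∃ G : Finset σ, (∀ S ∈ G, 0 < g S) ∧ (∀ i ∈ U, ∃ S ∈ G, cov S i) ∧
        θ * ∑ S ∈ G, c S ≤ ∑ S, g S * c S * phi (U.filter (fun i => cov S i)).card := by
  intro N
  induction N using Nat.strong_induction_on with
  | _ N ih =>
    intro U hU hcovU
    by_cases hN : N = 0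
    · refine ⟨∅, by simp, ?_, ?_⟩
      · intro i hi
        rw [hN, Finset.card_eq_zero] at hU
        rw [hU] at hi
        simp at hi
      · simp only [Finset.sum_empty, mul_zero]
        exact Finset.sum_nonneg (fun S _ => mul_nonneg (mul_nonneg (hg S) (hc S)) (phi_nonneg _))
    · have hNpos : 0 < N := Nat.pos_of_ne_zero hN
      let cnt : σ → ℕ := fun S => (U.filter (fun i => cov S i)).card
      -- the candidate sets
      have hcand : (Finset.univ.filter (fun S => 0 < g S ∧ 1 ≤ cnt S)).Nonempty := by
        have hUne : U.Nonempty := by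
          rw [← Finset.card_pos, hU]
          exact hNpos
        obtain ⟨i, hi⟩ := hUne
        have hpos : 0 < ∑ S ∈ Finset.univ.filter (fun S => cov S i), g S :=
          lt_of_lt_of_le hθ (hcovU i hi)
        obtain ⟨S, hS, hgS⟩ := Finset.exists_lt_of_sum_lt
          (s := Finset.univ.filter (fun S => cov S i))
          (f := fun _ : σ => (0 : ℝ)) (g := fun S => g S) (by simpa using hpos)
        refine ⟨S, ?_⟩
        rw [Finset.mem_filter]
        refine ⟨Finset.mem_univ S, hgS, ?_⟩
        apply Finset.card_pos.mpr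
        exact ⟨i, Finset.mem_filter.mpr ⟨hi, (Finset.mem_filter.mp hS).2⟩⟩
      obtain ⟨S0, hS0mem, hS0min⟩ := Finset.exists_min_image _
        (fun S => c S / (cnt S : ℝ)) hcand
      rw [Finset.mem_filter] at hS0mem
      obtain ⟨-, hgS0, hcnt0⟩ := hS0mem
      have hk0 : (0 : ℝ) < (cnt S0 : ℝ) := by exact_mod_cast hcnt0
      -- the elements covered by S0 and the rest
      have hcard : (U.filter (fun i => ¬ cov S0 i)).card + cnt S0 = N := by
        have h7 := Finset.card_filter_add_card_filter_not (s := U) (fun i => cov S0 i)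
        rw [hU] at h7
        show (U.filter (fun i => ¬ cov S0 i)).card + (U.filter (fun i => cov S0 i)).card = N
        omega
      have hlt' : (U.filter (fun i => ¬ cov S0 i)).card < N := by omega
      obtain ⟨G', hG'pos, hG'cov, hG'cost⟩ :=
        ih (U.filter (fun i => ¬ cov S0 i)).card hlt' (U.filter (fun i => ¬ cov S0 i)) rfl
          (fun i hi => hcovU i (Finset.mem_of_mem_filter i hi))
      -- overlap counts
      let ov : σ → ℕ := fun S => ((U.filter (fun i => cov S0 i)).filter (fun i => cov S i)).card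
      have hsplit : ∀ S, cnt S =
          ((U.filter (fun i => ¬ cov S0 i)).filter (fun i => cov S i)).card + ov S := by
        intro S
        have h8 := Finset.card_filter_add_card_filter_not (s := U.filter (fun i => cov S i))
          (fun i => cov S0 i)
        have e1 : (U.filter (fun i => ¬ cov S0 i)).filter (fun i => cov S i) =
            (U.filter (fun i => cov S i)).filter (fun i => ¬ cov S0 i) := by
          ext i
          simp only [Finset.mem_filter]
          tauto
        have e2 : (U.filter (fun i => cov S0 i)).filter (fun i => cov S i) =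
            (U.filter (fun i => cov S i)).filter (fun i => cov S0 i) := by
          ext i
          simp only [Finset.mem_filter]
          tauto
        show (U.filter (fun i => cov S i)).card =
          ((U.filter (fun i => ¬ cov S0 i)).filter (fun i => cov S i)).card +
          ((U.filter (fun i => cov S0 i)).filter (fun i => cov S i)).card
        rw [e1, e2]
        omega
      -- double counting of overlaps
      have hdc : θ * (cnt S0 : ℝ) ≤ ∑ S, g S * (ov S : ℝ) := by
        have h1 : ∑ S, g S * (ov S : ℝ) = ∑ i ∈ U.filter (fun i => cov S0 i),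
            ∑ S ∈ Finset.univ.filter (fun S => cov S i), g S := by
          have h0 : ∀ S, g S * (ov S : ℝ) =
              ∑ i ∈ U.filter (fun i => cov S0 i), (if cov S i then g S else 0) := by
            intro S
            rw [← Finset.sum_filter, Finset.sum_const, nsmul_eq_mul, mul_comm]
          simp_rw [h0]
          rw [Finset.sum_comm]
          apply Finset.sum_congr rfl
          intro i _
          rw [Finset.sum_filter]
        rw [h1]
        calc θ * (cnt S0 : ℝ) = ∑ _i ∈ U.filter (fun i => cov S0 i), θ := by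
              rw [Finset.sum_const, nsmul_eq_mul, mul_comm]
          _ ≤ _ := Finset.sum_le_sum (fun i hi => hcovU i (Finset.mem_of_mem_filter i hi))
      -- termwise inequality
      have hterm : ∀ S, g S * (c S0 / (cnt S0 : ℝ)) * (ov S : ℝ) +
          g S * c S * phi ((U.filter (fun i => ¬ cov S0 i)).filter (fun i => cov S i)).card ≤
          g S * c S * phi (cnt S) := by
        intro S
        rcases (hg S).lt_or_eq with hpos | hzero
        · by_cases hcnt : 1 ≤ cnt S
          · have hmin := hS0min S (Finset.mem_filter.mpr ⟨Finset.mem_univ S, hpos, hcnt⟩)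
            have hcS : (0 : ℝ) < (cnt S : ℝ) := by exact_mod_cast hcnt
            have hst := phi_step (cnt S) (ov S) (by have := hsplit S; omega)
            have hsub : cnt S - ov S =
                ((U.filter (fun i => ¬ cov S0 i)).filter (fun i => cov S i)).card := by
              have := hsplit S
              omega
            rw [hsub] at hst
            have h9 : c S0 / (cnt S0 : ℝ) * (ov S : ℝ) ≤ c S * ((ov S : ℝ) / (cnt S : ℝ)) := by
              calc c S0 / (cnt S0 : ℝ) * (ov S : ℝ) ≤ c S / (cnt S : ℝ) * (ov S : ℝ) :=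
                    mul_le_mul_of_nonneg_right hmin (Nat.cast_nonneg _)
                _ = c S * ((ov S : ℝ) / (cnt S : ℝ)) := by ring
            have h10 : c S * ((ov S : ℝ) / (cnt S : ℝ)) +
                c S * phi ((U.filter (fun i => ¬ cov S0 i)).filter (fun i => cov S i)).card ≤
                c S * phi (cnt S) := by
              rw [← mul_add]
              exact mul_le_mul_of_nonneg_left hst (hc S)
            have h11 : c S0 / (cnt S0 : ℝ) * (ov S : ℝ) +
                c S * phi ((U.filter (fun i => ¬ cov S0 i)).filter (fun i => cov S i)).card ≤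
                c S * phi (cnt S) := by linarith
            calc g S * (c S0 / (cnt S0 : ℝ)) * (ov S : ℝ) +
                  g S * c S * phi ((U.filter (fun i => ¬ cov S0 i)).filter
                    (fun i => cov S i)).card
                = g S * (c S0 / (cnt S0 : ℝ) * (ov S : ℝ) +
                  c S * phi ((U.filter (fun i => ¬ cov S0 i)).filter
                    (fun i => cov S i)).card) := by ring
              _ ≤ g S * (c S * phi (cnt S)) := mul_le_mul_of_nonneg_left h11 (hg S)
              _ = g S * c S * phi (cnt S) := by ring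
          · have h0 : cnt S = 0 := by omega
            have h1 := hsplit S
            have h2 : ov S = 0 := by omega
            have h3 : ((U.filter (fun i => ¬ cov S0 i)).filter (fun i => cov S i)).card = 0 := by
              omega
            rw [h0, h2, h3]
            simp
        · rw [← hzero]
          simp
      refine ⟨insert S0 G', ?_, ?_, ?_⟩
      · intro S hS
        rcases Finset.mem_insert.mp hS with rfl | h
        · exact hgS0
        · exact hG'pos S h
      · intro i hi
        by_cases hci : cov S0 i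
        · exact ⟨S0, Finset.mem_insert_self _ _, hci⟩
        · obtain ⟨S, hS, hSi⟩ := hG'cov i (Finset.mem_filter.mpr ⟨hi, hci⟩)
          exact ⟨S, Finset.mem_insert_of_mem hS, hSi⟩
      · have hins : ∑ S ∈ insert S0 G', c S ≤ c S0 + ∑ S ∈ G', c S := by
          by_cases hmem : S0 ∈ G'
          · rw [Finset.insert_eq_of_mem hmem]
            linarith [hc S0]
          · rw [Finset.sum_insert hmem]
        have hsum := Finset.sum_le_sum (fun S (_ : S ∈ Finset.univ) => hterm S)
        rw [Finset.sum_add_distrib] at hsum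
        have h12 : ∑ S, g S * (c S0 / (cnt S0 : ℝ)) * (ov S : ℝ) =
            c S0 / (cnt S0 : ℝ) * ∑ S, g S * (ov S : ℝ) := by
          rw [Finset.mul_sum]
          apply Finset.sum_congr rfl
          intro S _
          ring
        have h13 : θ * c S0 ≤ c S0 / (cnt S0 : ℝ) * ∑ S, g S * (ov S : ℝ) := by
          have h14 : c S0 / (cnt S0 : ℝ) * (θ * (cnt S0 : ℝ)) ≤
              c S0 / (cnt S0 : ℝ) * ∑ S, g S * (ov S : ℝ) :=
            mul_le_mul_of_nonneg_left hdc (div_nonneg (hc S0) hk0.le)
          have h15 : c S0 / (cnt S0 : ℝ) * (θ * (cnt S0 : ℝ)) = θ * c S0 := by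
            field_simp
          linarith
        calc θ * ∑ S ∈ insert S0 G', c S ≤ θ * (c S0 + ∑ S ∈ G', c S) :=
              mul_le_mul_of_nonneg_left hins hθ.le
          _ = θ * c S0 + θ * ∑ S ∈ G', c S := by ring
          _ ≤ c S0 / (cnt S0 : ℝ) * ∑ S, g S * (ov S : ℝ) +
                ∑ S, g S * c S * phi ((U.filter (fun i => ¬ cov S0 i)).filter
                  (fun i => cov S i)).card := add_le_add h13 hG'cost
          _ ≤ ∑ S, g S * c S * phi (cnt S) := by
              rw [← h12]
              exact hsum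

theorem result {X : Type*} [Fintype X] [DecidableEq X]
    (F : Set (Finset X)) (m : ℕ) (Hmin : Fin m → Finset X)
    (hmem : ∀ i, Hmin i ∈ F) (hgen : ∀ H ∈ F, ∃ i, Hmin i ⊆ H)
    (Δ : ℕ) (hΔ : 1 ≤ Δ)
    (g : Finset X → ℝ) (hg : ∀ S, 0 ≤ g S)
    (hdeg : ∀ S : Finset X, S.Nonempty → 0 < g S →
      (Finset.univ.filter (fun i => S ⊆ Hmin i)).card ≤ Δ)
    (hcov : ∀ H ∈ F, 1 ≤ ∑ S ∈ H.powerset, g S)
    (p : ℝ) (hp : 0 ≤ p)
    (hcost : ∑ S : Finset X, g S * p ^ S.card ≤ 1 / 2) :
    ∃ G : Finset (Finset X), (∀ H ∈ F, ∃ S ∈ G, S ⊆ H) ∧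
      ∑ S ∈ G, (p / (∑ j ∈ Finset.range Δ, 1 / ((j : ℝ) + 1))) ^ S.card ≤ 1 / 2 := by
  have hKphi : (∑ j ∈ Finset.range Δ, 1 / ((j : ℝ) + 1)) = phi Δ := rfl
  rw [hKphi]
  have hK1 : 1 ≤ phi Δ := by
    have h0 : (0 : ℕ) ∈ Finset.range Δ := Finset.mem_range.mpr (by omega)
    have h1 := Finset.single_le_sum (f := fun j : ℕ => 1 / ((j : ℝ) + 1))
      (fun j _ => by positivity) h0
    simpa [phi] using h1
  have hKpos : 0 < phi Δ := by linarith
  have hγ0 : 0 ≤ g ∅ := hg ∅
  let g' : Finset X → ℝ := fun S => if S = ∅ then 0 else g S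
  have hg' : ∀ S, 0 ≤ g' S := by
    intro S
    by_cases h : S = ∅
    · simp [g', h]
    · simp only [g', h, if_false]
      exact hg S
  have hsplit : ∀ S, g S = g' S + (if S = ∅ then g ∅ else 0) := by
    intro S
    by_cases h : S = ∅
    · simp [g', h]
    · simp [g', h]
  have hcosteq : ∑ S : Finset X, g S * p ^ S.card =
      ∑ S : Finset X, g' S * p ^ S.card + g ∅ := by
    have h1 : ∀ S : Finset X, g S * p ^ S.card =
        g' S * p ^ S.card + (if S = ∅ then g ∅ else 0) := by
      intro S
      by_cases h : S = ∅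
      · simp [g', h]
      · simp [g', h]
    rw [Finset.sum_congr rfl (fun S _ => h1 S), Finset.sum_add_distrib, Finset.sum_ite_eq']
    simp
  have hCnn : 0 ≤ ∑ S : Finset X, g' S * p ^ S.card :=
    Finset.sum_nonneg (fun S _ => mul_nonneg (hg' S) (pow_nonneg hp _))
  have hCle : ∑ S : Finset X, g' S * p ^ S.card ≤ 1 / 2 - g ∅ := by linarith
  have hθ : 0 < 1 - g ∅ := by linarith
  have hcovi : ∀ i ∈ (Finset.univ : Finset (Fin m)),
      1 - g ∅ ≤ ∑ S ∈ Finset.univ.filter (fun S : Finset X => S ⊆ Hmin i), g' S := by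
    intro i _
    have h1 := hcov (Hmin i) (hmem i)
    have h2 : Finset.univ.filter (fun S : Finset X => S ⊆ Hmin i) = (Hmin i).powerset := by
      ext S
      simp [Finset.mem_powerset]
    rw [h2]
    have h3 : ∑ S ∈ (Hmin i).powerset, g S = ∑ S ∈ (Hmin i).powerset, g' S + g ∅ := by
      rw [Finset.sum_congr rfl (fun S _ => hsplit S), Finset.sum_add_distrib,
        Finset.sum_ite_eq']
      simp
    linarith
  obtain ⟨G, hGpos, hGcov, hGcost⟩ := greedy (ι := Fin m) (σ := Finset X)
    (fun S i => S ⊆ Hmin i) (fun S => p ^ S.card) g' (fun S => pow_nonneg hp _) hg'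
    (1 - g ∅) hθ m Finset.univ (by simp) hcovi
  -- every set of positive weight lies in at most Δ generators
  have hbound : ∑ S : Finset X, g' S * p ^ S.card *
      phi ((Finset.univ : Finset (Fin m)).filter (fun i => S ⊆ Hmin i)).card ≤
      (∑ S : Finset X, g' S * p ^ S.card) * phi Δ := by
    rw [Finset.sum_mul]
    apply Finset.sum_le_sum
    intro S _
    by_cases h : S = ∅
    · simp [g', h]
    · by_cases hz : 0 < g S
      · have hle := hdeg S (Finset.nonempty_iff_ne_empty.mpr h) hz
        exact mul_le_mul_of_nonneg_left (phi_mono hle)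
          (mul_nonneg (hg' S) (pow_nonneg hp _))
      · have hz0 : g S = 0 := le_antisymm (not_lt.mp hz) (hg S)
        simp [g', h, hz0]
  refine ⟨G, ?_, ?_⟩
  · intro H hH
    obtain ⟨i, hi⟩ := hgen H hH
    obtain ⟨S, hS, hSi⟩ := hGcov i (Finset.mem_univ i)
    exact ⟨S, hS, hSi.trans hi⟩
  · have hne : ∀ S ∈ G, 1 ≤ S.card := by
      intro S hS
      have hpos := hGpos S hS
      by_contra h
      have h0 : S.card = 0 := by omega
      rw [Finset.card_eq_zero] at h0
      rw [h0] at hpos
      simp [g'] at hpos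
    have hterm : ∀ S ∈ G, (p / phi Δ) ^ S.card ≤ p ^ S.card / phi Δ := by
      intro S hS
      rw [div_pow]
      have hKpow : phi Δ ≤ phi Δ ^ S.card := by
        calc phi Δ = phi Δ ^ 1 := (pow_one _).symm
          _ ≤ phi Δ ^ S.card := pow_le_pow_right₀ hK1 (hne S hS)
      exact div_le_div_of_nonneg_left (pow_nonneg hp _) hKpos hKpow
    have hsum : ∑ S ∈ G, (p / phi Δ) ^ S.card ≤ (∑ S ∈ G, p ^ S.card) / phi Δ := by
      rw [Finset.sum_div]
      exact Finset.sum_le_sum hterm
    have h8 : (1 - g ∅) * ∑ S ∈ G, p ^ S.card ≤ (1 / 2 - g ∅) * phi Δ :=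
      le_trans (le_trans hGcost hbound) (mul_le_mul_of_nonneg_right hCle hKpos.le)
    have h10 : (1 / 2 - g ∅) * phi Δ ≤ (1 - g ∅) * (phi Δ / 2) := by
      nlinarith [mul_nonneg hγ0 hKpos.le]
    have h9 : ∑ S ∈ G, p ^ S.card ≤ phi Δ / 2 :=
      le_of_mul_le_mul_left (le_trans h8 h10) hθ
    calc ∑ S ∈ G, (p / phi Δ) ^ S.card ≤ (∑ S ∈ G, p ^ S.card) / phi Δ := hsum
      _ ≤ (phi Δ / 2) / phi Δ := div_le_div_of_nonneg_right h9 hKpos.le
      _ = 1 / 2 := by field_simp

end Vale.Agent.Results.P034.FewMinimal
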